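import Vale.Agent.P273SK.LocAt
import Vale.Agent.P273SA.Rows

/-!
# P273S, row LOC: the cycles are affine simplices near every point of every chart
-/

noncomputable section

namespace Vale.Agent.P273SK

open Set Filter Topology Function Metric MeasureTheory
open Vale.Agent.P223.H Vale.Agent.P223.X Vale.Agent.P223.X.Fund Vale.Agent.P223 Vale.Agent.P273SA
open scoped ContDiff

variable {n : ℕ}

/-! ### One more chart -/

section Ext

variable {M X Γ I : Type} [TopologicalSpace M] [TopologicalSpace X] [Group Γ] [MulAction Γ X]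
  {C : Cov n M X Γ I} {C' : Cov n M X Γ (Option I)}

/-- `C'` is `C` with one more chart. -/
structure More (C : Cov n M X Γ I) (C' : Cov n M X Γ (Option I)) : Prop where
  π : C'.π = C.π
  ψ : ∀ i, C'.ψ (some i) = C.ψ i

/-- The labels in the larger covering. -/
def up {k : ℕ} (l : Fin k → Γ × (I × E n)) : Fin k → Γ × (Option I × E n) :=
  fun j => ((l j).1, some (l j).2.1, (l j).2.2)

theorem More.co (h : More C C') (i : I) (x : X) : C'.co (some i) x = C.co i x := by
  unfold Cov.co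
  rw [h.ψ]

theorem More.F (h : More C C') : ∀ (k : ℕ) (l : Fin (k + 1) → Γ × (I × E n))
    (t : Fin (k + 1) → ℝ), Fund.F C' k (up l) t = Fund.F C k l t
  | 0, l, t => by
    change (l 0).1 • C'.ψ (some (l 0).2.1) (l 0).2.2 = (l 0).1 • C.ψ (l 0).2.1 (l 0).2.2
    rw [h.ψ]
  | k + 1, l, t => by
    rw [F_succ, F_succ, ← More.F h k (fun i => l i.succ), ← h.co, ← h.ψ]
    rfl

theorem More.Gd (h : More C C') : ∀ (k : ℕ) (l : Fin (k + 1) → Γ × (I × E n)),
    Fund.Gd C' k (up l) ↔ Fund.Gd C k l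
  | 0, _ => Iff.rfl
  | k + 1, l => by
    have h1 := More.Gd h k (fun i => l i.succ)
    have h2 := More.F h k (fun i => l i.succ)
    constructor
    · rintro ⟨a, b⟩
      refine ⟨h1.1 a, fun t ht => ?_⟩
      rw [← h2, ← h.ψ]
      exact b t ht
    · rintro ⟨a, b⟩
      refine ⟨h1.2 a, fun t ht => ?_⟩
      have h3 := b t ht
      rw [← h2, ← h.ψ] at h3
      exact h3

theorem More.SX (h : More C C') (k : ℕ) (l : Fin (k + 1) → Γ × (I × E n)) :
    Fund.SX C' k (up l) = Fund.SX C k l := by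
  ext1 t
  by_cases hg : Fund.Gd C k l
  · rw [SX_apply C hg, SX_apply C' ((h.Gd k l).2 hg), h.F]
  · have hg' : ¬ Fund.Gd C' k (up l) := fun e => hg ((h.Gd k l).1 e)
    unfold Fund.SX
    rw [dif_neg hg, dif_neg hg']
    exact h.F k l _

theorem More.ex (h : More C C') (i : I) (f : E n → ℝ) (x : X) :
    C'.ex (some i) f x = C.ex i f x := by
  unfold Cov.ex
  rw [h.co, h.ψ]

theorem More.rep (h : More C C') (f : X → ℝ) (γ : Γ) (i : I) :
    C'.rep f γ (some i) = C.rep f γ i := by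
  funext y
  unfold Cov.rep
  rw [h.ψ]

/-- The partition of unity, extended by zero. -/
def upχ (χ : I → E n → ℝ) : Option I → E n → ℝ := fun j => j.elim (fun _ => 0) χ

theorem More.part [Fintype I] (h : More C C') {χ : I → E n → ℝ} (hχ : Part C χ) :
    Part C' (upχ χ) where
  smooth j := by
    cases j with
    | none => exact contDiff_const
    | some i => exact hχ.smooth i
  nonneg j y := by
    cases j with
    | none => exact le_rfl
    | some i => exact hχ.nonneg i y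
  supp j y hy := by
    cases j with
    | none => rfl
    | some i => exact hχ.supp i y hy
  sum x := by
    rw [Fintype.sum_option, ← hχ.sum x]
    have h0 : ∀ z : X, C'.ex none (upχ χ none) z = 0 := by
      intro z
      unfold Cov.ex
      split_ifs <;> rfl
    simp only [h0, finsum_zero, zero_add]
    refine Finset.sum_congr rfl fun i _ => finsum_congr fun γ => ?_
    exact h.ex i (χ i) _

theorem More.wtX [Fintype I] (h : More C C') (χ : I → E n → ℝ) (f : Fin (n + 1) → X → ℝ) :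
    wtX C' (upχ χ) f = wtX C χ f := by
  unfold P223.X.wtX
  rw [Fintype.sum_option]
  have h0 : ∀ y, upχ χ none y = 0 := fun _ => rfl
  simp only [h0, zero_mul, integral_zero, finsum_zero, zero_add, h.rep]
  rfl

theorem More.ck (h : More C C') {f : X → ℝ} (hf : C.Ck 1 f) : C'.Ck 1 f := by
  intro γ j
  rw [contDiff_iff_contDiffAt]
  intro y
  obtain ⟨γ', i, y', -, hy⟩ := C.cover (γ • C'.ψ j y)
  have hm : (γ'⁻¹ * γ) • C'.ψ j y ∈ range (C'.ψ (some i)) := by
    rw [h.ψ, mul_smul, ← hy, inv_smul_smul]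
    exact mem_range_self _
  have ho : IsOpen {u | (γ'⁻¹ * γ) • C'.ψ j u ∈ range (C'.ψ (some i))} :=
    (C'.emb (some i)).isOpen_range.preimage ((C'.cont _).comp (C'.emb j).continuous)
  have h1 : ContDiffAt ℝ 1 (fun u => invFun (C'.ψ (some i)) ((γ'⁻¹ * γ) • C'.ψ j u)) y :=
    ((C'.smooth j (some i) (γ'⁻¹ * γ)).contDiffAt (ho.mem_nhds hm)).of_le (by simp)
  refine ((hf γ' i).contDiffAt.comp y h1).congr_of_eventuallyEq ?_
  filter_upwards [ho.mem_nhds hm] with u hu
  have h2 : C'.ψ (some i) (invFun (C'.ψ (some i)) ((γ'⁻¹ * γ) • C'.ψ j u)) =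
      (γ'⁻¹ * γ) • C'.ψ j u := invFun_eq hu
  change f (γ • C'.ψ j u) = f (γ' • C.ψ i (invFun (C'.ψ (some i)) ((γ'⁻¹ * γ) • C'.ψ j u)))
  rw [← h.ψ, h2, mul_smul, smul_inv_smul]

/-- The partition of unity for the larger covering. -/
def More.pux (h : More C C') {κ : Type} [Fintype κ] (P : PUX C κ) : PUX C' κ where
  φ := P.φ
  smooth i := h.ck (P.smooth i)
  supp := P.supp
  sum := P.sum

theorem More.adp (h : More C C') {κ : Type} [Fintype κ] {D : κ → I × E n} {P : PUX C κ} {ε : ℝ}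
    (hP : Adp C D P ε) : Adp C' (fun k => (some (D k).1, (D k).2)) (h.pux P) ε := by
  intro k
  refine ⟨(hP k).1, fun x hx => ?_⟩
  obtain ⟨y, h1, h2⟩ := (hP k).2 x hx
  exact ⟨y, h1, by rw [← h2, ← h.ψ]⟩

theorem More.cy [Fintype I] (h : More C C') (χ : I → E n → ℝ) {κ : Type} [Fintype κ]
    (D : κ → I × E n) (P : PUX C κ) :
    cy C' (upχ χ) (fun k => (some (D k).1, (D k).2)) (h.pux P) = cy C χ D P := by
  unfold Fund.cy
  refine finsum_mem_congr rfl fun l _ => ?_
  have h1 : sg C' (fun k => (some (D k).1, (D k).2)) n l = sg C D n l := by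
    unfold sg
    rw [h.π, ← h.SX n (lab D l)]
    rfl
  have h2 : (h.pux P).wt (upχ χ) l = P.wt χ l := h.wtX χ _
  rw [h1, h2]

theorem adp_mono {κ : Type} [Fintype κ] {D : κ → I × E n} {P : PUX C κ} {ε ε' : ℝ}
    (hP : Adp C D P ε) (h : ε ≤ ε') : Adp C D P ε' := by
  intro k
  refine ⟨(hP k).1, fun x hx => ?_⟩
  obtain ⟨y, h1, h2⟩ := (hP k).2 x hx
  exact ⟨y, h1.trans h, h2⟩

end Ext

/-! ### Coverings from families of charts -/

section Mk

variable {N : Type} [TopologicalSpace N] {I₀ I : Type}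

theorem pair_ok {e e' : J.Ch n N} (hc : J.Comp e e') {a a' : E n} {r r' : ℝ} (hr : 0 < r)
    (hr' : 0 < r') (hm : ∀ y, tt a r y ∈ e.target) (hm' : ∀ y, tt a' r' y ∈ e'.target) {y : E n}
    (hy : e.symm (tt a r y) ∈ range fun u => e'.symm (tt a' r' u)) :
    ContDiffAt ℝ ∞ (fun u => invFun (fun u => e'.symm (tt a' r' u)) (e.symm (tt a r u))) y ∧
      0 < (fderiv ℝ (fun u => invFun (fun u => e'.symm (tt a' r' u)) (e.symm (tt a r u))) y).det := by
  have hθ := emb_of_det (tt_smooth a r) (tt_inj _ hr) (tt_det _ hr)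
  have hθ' := emb_of_det (tt_smooth a' r') (tt_inj _ hr') (tt_det _ hr')
  have he := emb_symm e hθ.1 hm
  have he' := emb_symm e' hθ'.1 hm'
  have h0 : (fun u => invFun (fun u => e'.symm (tt a' r' u)) (e.symm (tt a r u))) =ᶠ[𝓝 y]
      fun u => invFun (tt a' r') (J.cm e e' (tt a r u)) := by
    filter_upwards [he.continuous.continuousAt.preimage_mem_nhds
      (he'.isOpen_range.mem_nhds hy)] with u ⟨v, hv⟩
    have hv' : e'.symm (tt a' r' v) = e.symm (tt a r u) := hv
    have h2 : J.cm e e' (tt a r u) = tt a' r' v := by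
      change e' (e.symm (tt a r u)) = _
      rw [← hv']
      exact e'.right_inv (hm' v)
    rw [h2, ← hv', leftInverse_invFun (tt_inj _ hr')]
    exact leftInverse_invFun he'.injective v
  obtain ⟨v, hv⟩ := hy
  have hv' : e'.symm (tt a' r' v) = e.symm (tt a r y) := hv
  have h2 : J.cm e e' (tt a r y) = tt a' r' v := by
    change e' (e.symm (tt a r y)) = _
    rw [← hv']
    exact e'.right_inv (hm' v)
  have h3 := hc (e.symm (tt a r y)) (e.map_target (hm y)) (hv' ▸ e'.map_target (hm' v))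
  rw [e.right_inv (hm y)] at h3
  have h4 := hθ'.2 v
  rw [← h2] at h4
  have h5 := det_comp3 (tt_smooth _ _).contDiffAt h3.1 h4.1 (tt_det _ hr y) h3.2 h4.2
  exact ⟨h5.1.congr_of_eventuallyEq h0, by rw [h0.fderiv_eq]; exact h5.2⟩

theorem exists_more {c : I₀ → J.Ch n N} (hc : RAtl c) {C : Cov n N N U1 I} {s : I → I₀}
    {a : I → E n} {r : I → ℝ} (hB : Bx c C s a r) (i₀ : I₀) (a₀ : E n) {r₀ : ℝ} (hr₀ : 0 < r₀)
    (hm₀ : ∀ y, tt a₀ r₀ y ∈ (c i₀).target) :
    ∃ C' : Cov n N N U1 (Option I), More C C' ∧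
      ∀ y, C'.ψ none y = (c i₀).symm (tt a₀ r₀ y) := by
  let s' : Option I → I₀ := fun j => j.elim i₀ s
  let a' : Option I → E n := fun j => j.elim a₀ a
  let r' : Option I → ℝ := fun j => j.elim r₀ r
  have hr : ∀ j, 0 < r' j := by
    intro j
    cases j with
    | none => exact hr₀
    | some i => exact hB.pos i
  have hm : ∀ j y, tt (a' j) (r' j) y ∈ (c (s' j)).target := by
    intro j
    cases j with
    | none => exact hm₀
    | some i => exact hB.mem i
  let ψ : Option I → E n → N := fun j y => (c (s' j)).symm (tt (a' j) (r' j) y)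
  have hψ : ∀ i, ψ (some i) = C.ψ i := fun i => funext fun y => (hB.eq i y).symm
  have he : ∀ j, IsOpenEmbedding (ψ j) := fun j =>
    emb_symm _ (emb_of_det (tt_smooth _ _) (tt_inj _ (hr j)) (tt_det _ (hr j))).1 (hm j)
  refine ⟨⟨ContinuousMap.id N, ψ, fun _ => continuous_id,
    fun _ _ _ => Subsingleton.elim _ _, cov_id N, surjective_id,
    fun x y => ⟨fun h => ⟨1, h⟩, fun ⟨_, h⟩ => h⟩, he,
    fun _ _ _ _ _ => Subsingleton.elim _ _, fun x => ?_, fun _ _ _ => toFinite _,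
    fun i j _ y hy => (pair_ok (hc.cmp _ _) (hr i) (hr j) (hm i) (hm j) hy).1.contDiffWithinAt,
    fun i j _ y hy => (pair_ok (hc.cmp _ _) (hr i) (hr j) (hm i) (hm j) hy).2⟩,
    ⟨hB.π.symm, hψ⟩, fun _ => rfl⟩
  obtain ⟨γ, i, y, h1, h2⟩ := C.cover x
  exact ⟨γ, some i, y, h1, by rw [hψ]; exact h2⟩

end Mk

/-- **LOC.** -/
theorem loc : LOC := by
  intro n N I₀ I _ _ _ _ c C s a r χ hn hc hB hχ
  obtain ⟨ε, hε, h1⟩ := small C (n + 1) 1 one_pos
  refine ⟨ε, hε, fun κ _ D P hP i₀ p hp => ?_⟩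
  obtain ⟨δ, hδ, hδ'⟩ := Metric.nhds_basis_closedBall.mem_iff.1
    ((c i₀).open_target.mem_nhds ((c i₀).map_source hp))
  have hr₀ : 0 < δ / 4 := by positivity
  have hm₀ : ∀ y, tt (c i₀ p) (δ / 4) y ∈ (c i₀).target := fun y => hδ' (by
    have := tt_mem (c i₀ p) hr₀ y
    rwa [mul_div_cancel₀ _ four_ne_zero] at this)
  obtain ⟨C', hM, hψ⟩ := exists_more hc hB i₀ (c i₀ p) hr₀ hm₀
  have hχ' := hM.part hχ
  obtain ⟨ε', hε', h2⟩ := small C' (n + 1) 1 one_pos
  obtain ⟨κ₁, _, P₁, D₁, hP₁, -⟩ := FundC.main n N N U1 I C χ hn hχ (min ε ε') (lt_min hε hε')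
  obtain ⟨κ₂, _, P₂, D₂, hP₂, w, A, σ, σ', hA, hσ, hσ3, hσ', ht, b, d, hd, hz⟩ :=
    locAt C' hn hχ' none (p := 0) (by simp) hε'
  obtain ⟨b₁, hb₁⟩ := hom_cy C FundE.formHom FundE.wts hn hχ hP
    (adp_mono hP₁ (min_le_left _ _)) fun l hl => (h1 l hl).1
  obtain ⟨b₂, hb₂⟩ := hom_cy C' FundE.formHom FundE.wts hn hχ'
    (hM.adp (adp_mono hP₁ (min_le_right _ _))) hP₂ fun l hl => (h2 l hl).1
  rw [hM.cy] at hb₂
  have hπ : ∀ x, C'.π x = x := fun x => by
    rw [hM.π, hB.π]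
    rfl
  have hp0 : C'.π (C'.ψ none 0) = p := by
    rw [hπ, hψ, tt_eq _ _ (by simp), smul_zero, add_zero, (c i₀).left_inv hp]
  rw [hp0] at ht hd
  refine ⟨c i₀ p + (δ / 4) • w, (δ / 4) • A, σ', b + b₂ + b₁, d, ?_, fun t => ?_, ht, hd, ?_⟩
  · rw [Matrix.det_smul]
    positivity
  · rw [hσ', hπ, hψ]
    refine ⟨(c i₀).map_target (hm₀ _), ?_⟩
    rw [(c i₀).right_inv (hm₀ _), tt_eq _ _ (hσ3 t), hσ]
    funext j
    simp only [Pi.add_apply, Pi.smul_apply, smul_eq_mul, Matrix.smul_apply, mul_add,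
      Finset.mul_sum]
    rw [add_assoc]
    congr 2
    exact Finset.sum_congr rfl fun i _ => by ring
  · have h3 : cy C χ D P = cy C' (upχ χ) D₂ P₂ + bd (n + 1) b₂ + bd (n + 1) b₁ := by
      rw [← hb₁, ← hb₂]
      abel
    rw [h3, hz, map_add, map_add]
    abel

end Vale.Agent.P273SK

end
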