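import Vale.Agent.P223.X.FundLoc
import Vale.Agent.P223.X.FundE
import Vale.Agent.P223.X.FundRep
import Vale.Agent.P223.X.FundCase
import Vale.Agent.P223.X.FundN
import Vale.Agent.P223.X.FundAlt

/-!
# P273S, row LOC: the local structure of the fundamental cycle in a prescribed chart
-/

namespace Vale.Agent.P273SK

open scoped ContDiff Topology
open Vale.Agent.P223.H Vale.Agent.P223.H.B8b Vale.Agent.P223.X Vale.Agent.P223.X.Fund

/-- The local structure of the cycle near the point `p` of the chart `i`. -/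
theorem locAt {n : ℕ} {M X Γ I : Type} [TopologicalSpace M] [TopologicalSpace X] [Group Γ]
    [MulAction Γ X] [Fintype I] [T2Space X] [T2Space M] (C : Cov n M X Γ I) {χ : I → E n → ℝ}
    (hn : 1 ≤ n) (hχ : Part C χ) (i : I) {p : E n} (hpn : ‖p‖ < 1) {ε : ℝ} (hε : 0 < ε) :
    ∃ (κ : Type) (_ : Fintype κ) (P : PUX C κ) (D : κ → I × E n), Adp C D P ε ∧
      ∃ (w : E n) (A : Matrix (Fin n) (Fin n) ℝ) (s : Simp (n + 1) (E n)) (s' : Simp (n + 1) M),
        0 < A.det ∧ (∀ t, s t = fun j => w j + ∑ i : Fin n, t i.succ * A i j) ∧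
        (∀ t, ‖s t‖ ≤ 3) ∧ (∀ t, s' t = C.π (C.ψ i (s t))) ∧
        (∃ t, (∀ i, 0 < t i) ∧ s' t = C.π (C.ψ i p)) ∧
        ∃ (b : Chain (n + 2) M) (c : Chain (n + 1) M),
          (∀ σ ∈ c.support, ∀ t, σ t ≠ C.π (C.ψ i p)) ∧
          cy C χ D P = Finsupp.single s' 1 + bd (n + 1) b + c := by
  classical
  obtain ⟨c, b₀, κ, _, P, D, hc, hAdp, hb, hbc, hb1, hφ, hD, hcase⟩ :=
    Fund.Case.main FundN.main n M X Γ I C χ hn hχ i p hpn ε hε
  obtain ⟨hth1, hth2⟩ := Fund.Rep.theta n M X Γ I C χ hn hχ i p c hc b₀ hb hbc hb1 κ P hφ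
  obtain ⟨c', hc', hcyc⟩ := Loc.local_part C Fund.Rep.wts hn hχ i p P D hcase
  have hcn : c ≠ 0 := hc.ne'
  -- notation
  set S : (Fin (n + 1) → Fin (n + 1)) → Simp (n + 1) M := fun k =>
    C.π.comp (SX C n fun m => ((1 : Γ), i, B8e.Q n p c (k m))) with hS
  have hS' : ∀ k : Fin (n + 1) → Fin (n + 1),
      sg C D n (fun m => (1, Sum.inl (k m))) = S k := fun k => by
    simp only [hS, sg]
    congr 2
    funext m
    simp only [lab, hD, B8e.Q]
  simp only [hS'] at hcyc
  -- only permutations contribute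
  have hperm : ∑ k : Fin (n + 1) → Fin (n + 1), Finsupp.single (S k)
      (P.wt χ fun m => (1, Sum.inl (k m))) =
      ∑ π : Equiv.Perm (Fin (n + 1)), Finsupp.single (S π)
        ((Equiv.Perm.sign π : ℤ) * ((n + 1).factorial : ℝ)⁻¹) := by
    have h1 : ∑ π : Equiv.Perm (Fin (n + 1)), Finsupp.single (S π)
        ((Equiv.Perm.sign π : ℤ) * ((n + 1).factorial : ℝ)⁻¹) =
        ∑ π : Equiv.Perm (Fin (n + 1)), Finsupp.single (S π)
          (P.wt χ fun m => (1, Sum.inl (π m))) :=
      Finset.sum_congr rfl fun π _ => by rw [hth1 π]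
    rw [h1]
    have hinjc : Function.Injective (fun π : Equiv.Perm (Fin (n + 1)) => (π : Fin (n + 1) → _)) :=
      fun a b h => DFunLike.coe_injective h
    rw [← Finset.sum_image (s := Finset.univ)
      (g := fun π : Equiv.Perm (Fin (n + 1)) => (π : Fin (n + 1) → Fin (n + 1)))
      (f := fun k => Finsupp.single (S k) (P.wt χ fun m => (1, Sum.inl (k m))))
      (fun a _ b _ h => hinjc h)]
    symm
    refine Finset.sum_subset (Finset.subset_univ _) fun k _ hk => ?_
    have hni : ¬ Function.Injective k := by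
      intro hi
      apply hk
      rw [Finset.mem_image]
      refine ⟨Equiv.ofBijective k (Finite.injective_iff_bijective.1 hi), Finset.mem_univ _, ?_⟩
      rfl
    rw [hth2 k hni, Finsupp.single_zero]
  -- alternation
  choose b d hbd hd using fun π : Equiv.Perm (Fin (n + 1)) =>
    Fund.Alt.main n M X Γ I C i (B8e.Q n p c) π
  have hsgn : ∀ π : Equiv.Perm (Fin (n + 1)), ((Equiv.Perm.sign π : ℤ) : ℝ) *
      ((Equiv.Perm.sign π : ℤ) : ℝ) = 1 := fun π => by
    rcases Int.units_eq_one_or (Equiv.Perm.sign π) with h | h <;> rw [h] <;> simp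
  set a : ℝ := ((n + 1).factorial : ℝ)⁻¹ with ha
  set sgn : Equiv.Perm (Fin (n + 1)) → ℝ := fun π => ((Equiv.Perm.sign π : ℤ) : ℝ) with hsg
  have hone : ∀ π : Equiv.Perm (Fin (n + 1)), Finsupp.single (S π) (sgn π * a) =
      a • Finsupp.single (S (fun m => m)) (1 : ℝ) + (sgn π * a) • bd (n + 1) (b π) +
        (sgn π * a) • d π := by
    intro π
    have h1 : Finsupp.single (S π) (sgn π * a) = (sgn π * a) • Finsupp.single (S π) (1 : ℝ) := by
      rw [Finsupp.smul_single, smul_eq_mul, mul_one]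
    have h2 : Finsupp.single (S π) (1 : ℝ) = sgn π • Finsupp.single (S (fun m => m)) 1 +
        bd (n + 1) (b π) + d π := hbd π
    rw [h1]
    conv_lhs => rw [h2]
    rw [smul_add, smul_add, smul_smul]
    have h3 : sgn π * a * sgn π = a := by
      have := hsgn π
      calc sgn π * a * sgn π = (sgn π * sgn π) * a := by ring
        _ = a := by rw [this, one_mul]
    rw [h3]
  have hsum : ∑ π : Equiv.Perm (Fin (n + 1)), Finsupp.single (S π) (sgn π * a) =
      Finsupp.single (S (fun m => m)) (1 : ℝ) + bd (n + 1) (∑ π, (sgn π * a) • b π) +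
        ∑ π, (sgn π * a) • d π := by
    rw [Finset.sum_congr rfl fun π _ => hone π, Finset.sum_add_distrib, Finset.sum_add_distrib,
      Finset.sum_const, Finset.card_univ, Fintype.card_perm, Fintype.card_fin, map_sum]
    simp only [map_smul]
    have : (n + 1).factorial • a • Finsupp.single (S (fun m => m)) (1 : ℝ) =
        Finsupp.single (S (fun m => m)) (1 : ℝ) := by
      rw [← Nat.cast_smul_eq_nsmul ℝ, smul_smul, ha, mul_inv_cancel₀, one_smul]
      exact_mod_cast (n + 1).factorial_ne_zero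
    rw [this]
  -- the affine simplex
  set s : Simp (n + 1) (E n) := ⟨fun t => ∑ m, t m • B8e.Q n p c m,
    continuous_finsetSum _ fun m _ =>
      ((continuous_apply m).comp continuous_subtype_val).smul continuous_const⟩ with hs
  have hsa : ∀ t, s t = ∑ m, t m • B8e.Q n p c m := fun t => rfl
  have hs' : ∀ t, S (fun m => m) t = C.π (C.ψ i (s t)) := by
    intro t
    have h1 : SX C n (fun m => ((1 : Γ), i, B8e.Q n p c m)) t =
        (1 : Γ) • C.ψ i (∑ m, t m • B8e.Q n p c m) :=
      SX_affine C (l := fun m => ((1 : Γ), i, B8e.Q n p c m)) (fun j => ⟨rfl, rfl⟩) t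
    show C.π (SX C n (fun m => ((1 : Γ), i, B8e.Q n p c m)) t) = _
    rw [h1, one_smul, hsa]
  set A : Matrix (Fin n) (Fin n) ℝ :=
    Matrix.of fun i j => B8e.Q n p c i.succ j - B8e.Q n p c 0 j with hA
  refine ⟨Fin (n + 1) ⊕ κ, inferInstance, P, D, hAdp, B8e.Q n p c 0, A, s, S fun m => m,
    ?_, ?_, ?_, hs', ?_, ∑ π, (sgn π * a) • b π, ∑ π, (sgn π * a) • d π + c', ?_, ?_⟩
  · -- determinant
    have hA' : ∀ i j : Fin n, A i j = if j ≤ i then c else 0 := by
      intro i j
      simp only [hA, Matrix.of_apply, B8e.Q, crdInv, vtx, Fin.val_succ, Fin.val_zero, Fin.le_def]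
      have e1 : ((j : ℕ) < i + 1) ↔ ((j : ℕ) ≤ i) := Nat.lt_succ_iff
      simp only [e1, Nat.not_lt_zero, if_false]
      split_ifs <;> ring
    have htri : A.BlockTriangular OrderDual.toDual := by
      intro i j hij
      rw [hA', if_neg]
      exact not_le.2 (OrderDual.toDual_lt_toDual.1 hij)
    rw [Matrix.det_of_isLowerTriangular A htri]
    refine Finset.prod_pos fun i _ => ?_
    rw [hA', if_pos le_rfl]; exact hc
  · intro t
    rw [hsa]
    funext j
    have h1 := stdSimplex.sum_eq_one t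
    rw [Fin.sum_univ_succ] at h1
    rw [Fin.sum_univ_succ]
    simp only [Pi.add_apply, Pi.smul_apply, smul_eq_mul, Finset.sum_apply, hA, Matrix.of_apply,
      mul_sub, Finset.sum_sub_distrib, ← Finset.sum_mul]
    have h2 : t 0 = 1 - ∑ i : Fin n, t i.succ := by linarith
    rw [h2]; ring
  · intro t
    rw [hsa]
    have hq : ∀ m, ‖B8e.Q n p c m‖ ≤ 3 := fun m => by
      have h1 := (hAdp (Sum.inl m)).1
      rw [hD] at h1
      exact h1
    calc ‖∑ m, t m • B8e.Q n p c m‖ ≤ ∑ m, ‖t m • B8e.Q n p c m‖ := norm_sum_le _ _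
      _ ≤ ∑ m, t m * 3 := Finset.sum_le_sum fun m _ => by
          have h0 : 0 ≤ t m := t.2.1 m
          rw [norm_smul, Real.norm_eq_abs, abs_of_nonneg h0]
          exact mul_le_mul_of_nonneg_left (hq m) h0
      _ = 3 := by rw [← Finset.sum_mul, stdSimplex.sum_eq_one t, one_mul]
  · -- the barycentre
    have hmem : (fun _ => 1 / ((n : ℝ) + 1) : Fin (n + 1) → ℝ) ∈ stdSimplex ℝ (Fin (n + 1)) := by
      refine ⟨fun _ => by positivity, ?_⟩
      rw [Finset.sum_const, Finset.card_univ, Fintype.card_fin, nsmul_eq_mul]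
      push_cast
      field_simp
    set t : stdSimplex ℝ (Fin (n + 1)) := ⟨fun _ => 1 / ((n : ℝ) + 1), hmem⟩ with ht
    refine ⟨t, fun i => ?_, ?_⟩
    · show 0 < 1 / ((n : ℝ) + 1)
      positivity
    · rw [hs']
      congr 2
      rw [hsa]
      have hcr : crd p c (∑ m, t m • B8e.Q n p c m) = crd p c p := by
        funext i
        have := B8e.crd_comb p hcn t (fun m => m) i
        rw [this, crd_self]
        have e1 : ∀ m, t m = 1 / ((n : ℝ) + 1) := fun m => rfl
        simp only [e1, vtx, ← Finset.mul_sum, xc]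
        rw [Finset.sum_boole]
        have e2 : (Finset.univ.filter fun m : Fin (n + 1) => (i : ℕ) < m).card = n - i := by
          have : (Finset.univ.filter fun m : Fin (n + 1) => (i : ℕ) < m) =
              Finset.Ioi i.castSucc := by
            ext m; simp [Fin.lt_def]
          rw [this, Fin.card_Ioi]
          simp
        rw [e2, Nat.cast_sub i.2.le]
        ring
      have hinv : ∀ x : E n, crdInv p c (crd p c x) = x := by
        intro x; funext i
        simp only [crdInv, crd]
        field_simp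
        ring
      have := congrArg (crdInv p c) hcr
      rwa [hinv, hinv] at this
  · intro σ hσ t
    rcases Finset.mem_union.1 (Finsupp.support_add hσ) with h | h
    · obtain ⟨π, _, hπ⟩ := Finsupp.mem_support_finsetSum σ h
      have hπ2 : σ ∈ (d π).support := Finsupp.support_smul hπ
      obtain ⟨k, hk, rfl⟩ := hd π σ hπ2
      exact Loc.degen C i p hcn k hk t
    · exact hc' σ h t
  · rw [hcyc, hperm, hsum]
    abel

end Vale.Agent.P273SK
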